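import Crest.Agent.N222.G.Graph1

-- ▼ part N250/G/Ev
section

/-!
# Row 250: the time dependent delta-calculus of a moving hypersurface (helper86)

`Mov R ι` = `Pre R ι` + normal time derivative `T`, unit normal `n`, normal speed `V`.
`B a b = D a (n b)`, `h = div n`, `a2 = |B|²`, `box = T - lap`, `w = V + h` (`w = 0` for the mean
curvature flow, `w = ⟨x, n⟩ / 2` for the rescaled flow).
-/

set_option autoImplicit false
set_option linter.unusedSectionVars false

noncomputable section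

namespace Crest.Agent.N250

open Crest.Agent.N222

/-- moving hypersurfaces: algebraic data -/
structure Mov (R : Type) (ι : Type) extends Pre R ι where
  T : R → R
  n : ι → R
  V : R

namespace Mov

variable {R : Type} [CommRing R] {ι : Type} [Fintype ι] (S : Mov R ι)

/-- shape operator `D n` -/
def B (a b : ι) : R := S.D a (S.n b)

/-- mean curvature `div n` -/
def h : R := ∑ a, S.B a a

/-- `B²` -/
def B2 (a b : ι) : R := ∑ c, S.B a c * S.B c b

/-- `|A|²` -/
def a2 : R := ∑ a, ∑ b, S.B a b * S.B a b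

/-- the heat operator -/
def box (f : R) : R := S.T f - S.lap f

/-- the forcing: speed minus the speed of the mean curvature flow -/
def w : R := S.V + S.h

/-- the static axioms: a hypersurface with unit normal `n` -/
structure IsHyp [Algebra ℝ R] [DecidableEq ι] : Prop extends S.toPre.IsDS where
  nn : ∑ a, S.n a * S.n a = 1
  Pn : ∀ a b, S.P a b = (if a = b then 1 else 0) - S.n a * S.n b

/-- the axioms of a moving hypersurface -/
structure IsMov [Algebra ℝ R] [DecidableEq ι] : Prop extends S.IsHyp where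
  Tadd : ∀ f g, S.T (f + g) = S.T f + S.T g
  Tmul : ∀ f g, S.T (f * g) = f * S.T g + S.T f * g
  Tconst : ∀ r : ℝ, S.T (algebraMap ℝ R r) = 0
  Tx : ∀ a, S.T (S.x a) = S.V * S.n a
  comm : ∀ a f, S.T (S.D a f) =
    S.D a (S.T f) + S.n a * S.gam S.V f - S.V * ∑ b, S.B a b * S.D b f

/-- ring maps that commute with the data -/
structure Hom {R' : Type} [CommRing R'] (S' : Mov R' ι) (φ : R →+* R') : Prop
    extends S.toPre.Hom S'.toPre φ where
  T : ∀ f, φ (S.T f) = S'.T (φ f)
  n : ∀ a, φ (S.n a) = S'.n a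
  V : φ S.V = S'.V

section Hom

variable {S} {R' : Type} [CommRing R'] {S' : Mov R' ι} {φ : R →+* R'} (H : S.Hom S' φ)
include H

theorem Hom.B (a b : ι) : φ (S.B a b) = S'.B a b := by simp only [Mov.B, H.D, H.n]
theorem Hom.h : φ S.h = S'.h := by simp only [Mov.h, map_sum, H.B]
theorem Hom.B2 (a b : ι) : φ (S.B2 a b) = S'.B2 a b := by
  simp only [Mov.B2, map_sum, map_mul, H.B]
theorem Hom.a2 : φ S.a2 = S'.a2 := by simp only [Mov.a2, map_sum, map_mul, H.B]
theorem Hom.box (f : R) : φ (S.box f) = S'.box (φ f) := by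
  simp only [Mov.box, map_sub, H.T, H.toHom.lap]
theorem Hom.w : φ S.w = S'.w := by simp only [Mov.w, map_add, H.V, H.h]

end Hom

variable [Algebra ℝ R] [DecidableEq ι] {S}

namespace IsHyp

variable (H : S.IsHyp)
include H

/-- `P Y = Y - ⟨n, Y⟩ n` -/
theorem P_apply (Y : ι → R) (a : ι) :
    ∑ b, S.P a b * Y b = Y a - S.n a * ∑ b, S.n b * Y b := by
  simp only [H.Pn, sub_mul, Finset.sum_sub_distrib, ite_mul, one_mul, zero_mul,
    Finset.sum_ite_eq, Finset.mem_univ, if_true, Finset.mul_sum, mul_assoc]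

theorem P_n (a : ι) : ∑ b, S.P a b * S.n b = 0 := by
  rw [H.P_apply, H.nn]; ring

/-- tangential fields are orthogonal to `n` -/
theorem n_tan {Y : ι → R} (hY : S.Tan Y) : ∑ a, S.n a * Y a = 0 := by
  have : ∑ a, S.n a * Y a = ∑ b, (∑ a, S.P b a * S.n a) * Y b := by
    simp only [Finset.sum_mul]
    rw [Finset.sum_comm]
    refine Finset.sum_congr rfl fun a _ => ?_
    conv_lhs => rw [← hY a, Finset.mul_sum]
    exact Finset.sum_congr rfl fun b _ => by rw [H.symm b a]; ring
  simp [this, H.P_n]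

theorem tan_of {Y : ι → R} (hY : ∑ a, S.n a * Y a = 0) : S.Tan Y := fun a => by
  rw [H.P_apply, hY]; ring

theorem n_D (f : R) : ∑ a, S.n a * S.D a f = 0 := H.n_tan (H.tan f)

theorem n_B (b : ι) : ∑ a, S.n a * S.B a b = 0 := H.n_D _

theorem B_n (a : ι) : ∑ b, S.n b * S.B a b = 0 := by
  apply Pre.IsDS.two_cancel
  have h1 := H.toIsDS.D_one a
  rw [← H.nn, H.toIsDS.D_sum] at h1
  rw [← h1, Finset.mul_sum]
  exact Finset.sum_congr rfl fun b _ => by rw [H.mul, Mov.B]; ring

theorem tan_B (a : ι) : S.Tan (S.B a) := H.tan_of (H.B_n a)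


theorem DP (a b c : ι) : S.D a (S.P b c) = -(S.B a b * S.n c) - S.n b * S.B a c := by
  have h1 : S.D a (if b = c then (1 : R) else 0) = 0 := by
    split_ifs
    exacts [H.toIsDS.D_one a, H.toIsDS.D_zero a]
  rw [H.Pn, H.toIsDS.D_sub, h1, H.mul, Mov.B, Mov.B]; ring

theorem II_eq (a b c : ι) : S.II a b c = -(S.B a b * S.n c) := by
  rw [H.toIsDS.II_eq]
  have : ∀ e, S.P b e * S.D a (S.P e c) =
      -(S.P b e * S.B a e * S.n c) - S.P b e * S.n e * S.B a c := fun e => by rw [H.DP]; ring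
  simp only [this, Finset.sum_sub_distrib, Finset.sum_neg_distrib, ← Finset.sum_mul, H.P_n,
    H.tan_B a b]
  ring

theorem B_eq (a b : ι) : S.B a b = -∑ c, S.II a b c * S.n c := by
  simp only [H.II_eq, neg_mul, mul_assoc, Finset.sum_neg_distrib, ← Finset.mul_sum, H.nn]; ring

theorem B_symm (a b : ι) : S.B a b = S.B b a := by
  simp only [H.B_eq, H.toIsDS.II_symm a b]

theorem H_eq (c : ι) : S.H c = -(S.h * S.n c) := by
  rw [← H.toIsDS.tr_II]
  simp only [H.II_eq, Finset.sum_neg_distrib, ← Finset.sum_mul, Mov.h]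

theorem B2_symm (a b : ι) : S.B2 a b = S.B2 b a :=
  Finset.sum_congr rfl fun c _ => by rw [H.B_symm a c, H.B_symm c b, mul_comm]

theorem tr_B2 : ∑ a, S.B2 a a = S.a2 :=
  Finset.sum_congr rfl fun a _ => Finset.sum_congr rfl fun c _ => by rw [H.B_symm c a]

theorem n_B2 (b : ι) : ∑ a, S.n a * S.B2 a b = 0 := by
  simp only [Mov.B2, Finset.mul_sum, ← mul_assoc]
  rw [Finset.sum_comm]
  simp only [← Finset.sum_mul, H.n_B, zero_mul, Finset.sum_const_zero]

/-- second derivatives -/
theorem DD (f : R) (a b : ι) :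
    S.D a (S.D b f) = S.hess f a b - S.n b * ∑ c, S.B a c * S.D c f := by
  rw [H.toIsDS.DD, Finset.mul_sum, sub_eq_add_neg, ← Finset.sum_neg_distrib]
  congr 1
  exact Finset.sum_congr rfl fun c _ => by rw [H.II_eq]; ring

/-- the commutator of two tangential derivatives -/
theorem DD_comm (f : R) (a b : ι) : S.D a (S.D b f) = S.D b (S.D a f)
    + S.n a * ∑ c, S.B b c * S.D c f - S.n b * ∑ c, S.B a c * S.D c f := by
  rw [H.DD, H.DD, H.hess f a b]; ring

theorem n_DD (f : R) (a : ι) :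
    ∑ b, S.n b * S.D a (S.D b f) = -∑ c, S.B a c * S.D c f := by
  simp only [H.DD, mul_sub, Finset.sum_sub_distrib, ← mul_assoc, ← Finset.sum_mul, H.nn,
    H.n_tan (H.toIsDS.tan_hess f a)]
  ring

/-- `Δ n = ∇ h - |A|² n` -/
theorem lap_n (a : ι) : S.lap (S.n a) = S.D a S.h - S.a2 * S.n a := by
  have e1 : ∀ b, S.D b (S.D b (S.n a)) = S.D a (S.B b b) + S.n b * S.B2 a b
      - S.n a * S.B2 b b := fun b => by
    change S.D b (S.B b a) = _
    rw [H.B_symm b a, Mov.B, H.DD_comm]
    rfl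
  simp only [Pre.lap, e1, Finset.sum_sub_distrib, Finset.sum_add_distrib, ← Finset.mul_sum,
    H.tr_B2, H.B2_symm a, H.n_B2, Mov.h, H.toIsDS.D_sum]
  ring

theorem dv_B (c : ι) : ∑ b, S.D b (S.B b c) = S.D c S.h - S.a2 * S.n c := H.lap_n c

/-- the commutator of the Laplacian and a tangential derivative -/
theorem lap_D (f : R) (a : ι) : S.lap (S.D a f) = S.D a (S.lap f)
    - 2 * ∑ b, S.B2 a b * S.D b f + S.h * ∑ b, S.B a b * S.D b f
    - 2 * S.n a * ∑ b, ∑ c, S.B b c * S.D b (S.D c f) - S.n a * S.gam S.h f := by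
  have hD := H.toIsDS
  have e1 : ∀ b, S.D b (S.D b (S.D a f)) = S.D b (S.D a (S.D b f))
      + (S.n b * S.D b (∑ c, S.B a c * S.D c f) + S.B b b * ∑ c, S.B a c * S.D c f)
      - (S.n a * S.D b (∑ c, S.B b c * S.D c f) + S.B b a * ∑ c, S.B b c * S.D c f) := fun b => by
    conv_lhs => rw [H.DD_comm f b a]
    rw [hD.D_sub, H.add, H.mul, H.mul]
    rfl
  have e2 : ∀ b, S.D b (S.D a (S.D b f)) = S.D a (S.D b (S.D b f))
      + ∑ c, S.B a c * (S.n b * S.D c (S.D b f)) - S.n a * ∑ c, S.B b c * S.D c (S.D b f) :=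
    fun b => by
      rw [H.DD_comm (S.D b f) b a, Finset.mul_sum]
      congr 2
      exact Finset.sum_congr rfl fun c _ => by ring
  have e3 : ∑ b, ∑ c, S.B a c * (S.n b * S.D c (S.D b f)) = -∑ b, S.B2 a b * S.D b f := by
    rw [Finset.sum_comm]
    simp only [← Finset.mul_sum, H.n_DD, mul_neg, Finset.sum_neg_distrib, Mov.B2, Finset.sum_mul]
    congr 1
    simp only [Finset.mul_sum, mul_assoc]
    exact Finset.sum_comm
  have e4 : ∑ b, ∑ c, S.B b c * S.D c (S.D b f) = ∑ b, ∑ c, S.B b c * S.D b (S.D c f) := by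
    rw [Finset.sum_comm]
    simp only [H.B_symm]
  have e5 : ∑ b, S.B b a * ∑ c, S.B b c * S.D c f = ∑ b, S.B2 a b * S.D b f := by
    simp only [Mov.B2, Finset.mul_sum, Finset.sum_mul, mul_assoc, H.B_symm _ a]
    exact Finset.sum_comm
  have e6 : ∑ b, S.D b (∑ c, S.B b c * S.D c f) =
      ∑ b, ∑ c, S.B b c * S.D b (S.D c f) + S.gam S.h f := by
    simp only [hD.D_sum, H.mul, Finset.sum_add_distrib]
    congr 1
    rw [Finset.sum_comm]
    simp only [← Finset.sum_mul, H.dv_B, sub_mul, Finset.sum_sub_distrib, mul_assoc,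
      ← Finset.mul_sum, H.n_D, mul_zero, sub_zero, Pre.gam]
  have e7 : S.D a (S.lap f) = ∑ b, S.D a (S.D b (S.D b f)) := hD.D_sum _ _ _
  have e8 : S.h = ∑ b, S.B b b := rfl
  rw [e7, Pre.lap]
  simp only [e1, e2, Finset.sum_sub_distrib, Finset.sum_add_distrib, ← Finset.mul_sum,
    ← Finset.sum_mul, H.n_D, e3, e4, e5, e6, ← e8]
  ring

end IsHyp

namespace IsMov

variable (H : S.IsMov)
include H

theorem T_zero : S.T 0 = 0 := by simpa using H.Tconst 0

theorem T_one : S.T 1 = 0 := by simpa using H.Tconst 1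

theorem T_neg (f : R) : S.T (-f) = -S.T f := by
  have := H.Tadd f (-f)
  rw [add_neg_cancel, H.T_zero] at this
  linear_combination -this

theorem T_sub (f g : R) : S.T (f - g) = S.T f - S.T g := by
  rw [sub_eq_add_neg, H.Tadd, H.T_neg, sub_eq_add_neg]

theorem T_sum {κ : Type*} (s : Finset κ) (f : κ → R) :
    S.T (∑ k ∈ s, f k) = ∑ k ∈ s, S.T (f k) := by
  classical
  induction s using Finset.induction_on with
  | empty => simp [H.T_zero]
  | insert k s hk ih => rw [Finset.sum_insert hk, Finset.sum_insert hk, H.Tadd, ih]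

theorem lap_add (f g : R) : S.lap (f + g) = S.lap f + S.lap g := by
  simp only [Pre.lap, H.add, Finset.sum_add_distrib]

theorem box_add (f g : R) : S.box (f + g) = S.box f + S.box g := by
  simp only [Mov.box, H.Tadd, H.lap_add]; ring

theorem box_const (r : ℝ) : S.box (algebraMap ℝ R r) = 0 := by
  simp only [Mov.box, Pre.lap, H.Tconst, H.const, H.toIsDS.D_zero, Finset.sum_const_zero, sub_zero]

theorem box_zero : S.box 0 = 0 := by simpa using H.box_const 0

theorem box_one : S.box 1 = 0 := by simpa using H.box_const 1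

theorem box_neg (f : R) : S.box (-f) = -S.box f := by
  have := H.box_add f (-f)
  rw [add_neg_cancel, H.box_zero] at this
  linear_combination -this

theorem box_sub (f g : R) : S.box (f - g) = S.box f - S.box g := by
  rw [sub_eq_add_neg, H.box_add, H.box_neg, sub_eq_add_neg]

theorem box_sum {κ : Type*} (s : Finset κ) (f : κ → R) :
    S.box (∑ k ∈ s, f k) = ∑ k ∈ s, S.box (f k) := by
  classical
  induction s using Finset.induction_on with
  | empty => simp [H.box_zero]
  | insert k s hk ih => rw [Finset.sum_insert hk, Finset.sum_insert hk, H.box_add, ih]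

/-- the product rule -/
theorem box_mul (f g : R) : S.box (f * g) = f * S.box g + S.box f * g - 2 * S.gam f g := by
  simp only [Mov.box, H.Tmul, H.toIsDS.lap_mul]; ring


theorem box_x (a : ι) : S.box (S.x a) = S.w * S.n a := by
  have := H.toIsHyp.H_eq a
  rw [Pre.H] at this
  rw [Mov.box, H.Tx, this, Mov.w]; ring

theorem T_P (a b : ι) : S.T (S.P a b) = S.D a S.V * S.n b + S.n a * S.D b S.V := by
  have e1 : S.gam S.V (S.x b) = S.D b S.V := by
    rw [← H.toIsDS.PD b]
    exact Finset.sum_congr rfl fun c _ => by rw [mul_comm, H.symm b c]; rfl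
  have e2 : ∑ c, S.B a c * S.D c (S.x b) = S.B a b :=
    H.toIsDS.tan_left (H.toIsHyp.tan_B a) b
  rw [Pre.P, H.comm, H.Tx, H.mul, e1, e2, Mov.B]; ring

/-- `∂ₜ n = -∇ V` -/
theorem T_n (a : ι) : S.T (S.n a) = -S.D a S.V := by
  have e0 : ∑ b, S.n b * S.T (S.n b) = 0 := by
    apply Pre.IsDS.two_cancel
    have h1 := H.T_one
    rw [← H.nn, H.T_sum] at h1
    rw [← h1, Finset.mul_sum]
    exact Finset.sum_congr rfl fun b _ => by rw [H.Tmul]; ring
  have e1 : ∀ b, S.T (S.P a b) = -(S.n a * S.T (S.n b) + S.T (S.n a) * S.n b) := fun b => by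
    have h1 : S.T (if a = b then (1 : R) else 0) = 0 := by
      split_ifs
      exacts [H.T_one, H.T_zero]
    rw [H.Pn, H.T_sub, h1, H.Tmul]; ring
  have e2 : ∀ b, S.T (S.n a) * (S.n b * S.n b) + S.n a * (S.n b * S.T (S.n b)) =
      -(S.D a S.V * (S.n b * S.n b)) - S.n a * (S.n b * S.D b S.V) := fun b => by
    linear_combination (S.n b) * (e1 b) - (S.n b) * (H.T_P a b)
  have e3 := Finset.sum_congr (s₁ := Finset.univ) rfl fun b _ => e2 b
  simp only [Finset.sum_add_distrib, Finset.sum_sub_distrib, Finset.sum_neg_distrib,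
    ← Finset.mul_sum, H.nn, e0, H.toIsHyp.n_D] at e3
  linear_combination e3

theorem box_n (a : ι) : S.box (S.n a) = S.a2 * S.n a - S.D a S.w := by
  rw [Mov.box, H.T_n, H.toIsHyp.lap_n, Mov.w, H.add]; ring

/-- **the commutator of the heat operator and a tangential derivative** -/
theorem box_D (f : R) (a : ι) : S.box (S.D a f) = S.D a (S.box f)
    + 2 * ∑ b, S.B2 a b * S.D b f + 2 * S.n a * ∑ b, ∑ c, S.B b c * S.D b (S.D c f)
    + S.n a * S.gam S.w f - S.w * ∑ b, S.B a b * S.D b f := by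
  have e : S.gam S.w f = S.gam S.V f + S.gam S.h f := by
    simp only [Pre.gam, Mov.w, H.add, add_mul, Finset.sum_add_distrib]
  rw [Mov.box, Mov.box, H.comm, H.toIsHyp.lap_D, H.toIsDS.D_sub, e, Mov.w]; ring

end IsMov

end Mov

end Crest.Agent.N250

end
end

-- ▼ part N250/G/Ev2

/-!
# Row 250: evolution equations of the curvature (helper86)
-/

set_option autoImplicit false
set_option linter.unusedSectionVars false

noncomputable section

namespace Crest.Agent.N250

open Crest.Agent.N222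

namespace Mov

variable {R : Type} [CommRing R] {ι : Type} [Fintype ι] (S : Mov R ι)


/-- `tr B³` -/
def a3 : R := ∑ a, ∑ b, S.B2 a b * S.B a b

/-- `tr B⁴` -/
def a4 : R := ∑ a, ∑ b, S.B2 a b * S.B2 a b




/-- `⟨x, n⟩` -/
def xn : R := ∑ a, S.x a * S.n a

/-- `|x|²` -/
def x2 : R := ∑ a, S.x a * S.x a

variable [Algebra ℝ R] [DecidableEq ι] {S}

namespace IsHyp

variable (H : S.IsHyp)
include H












theorem D_xn (a : ι) : S.D a S.xn = ∑ b, S.B a b * S.x b := by
  have e : ∀ b, S.D a (S.x b * S.n b) = S.B a b * S.x b + S.P a b * S.n b := fun b => by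
    rw [H.mul, Mov.B, Pre.P]; ring
  simp only [Mov.xn, H.toIsDS.D_sum, e, Finset.sum_add_distrib, H.P_n, add_zero]

theorem D_x2 (a : ι) : S.D a S.x2 = 2 * (S.x a - S.xn * S.n a) := by
  have e : ∀ b, S.D a (S.x b * S.x b) = 2 * (S.P a b * S.x b) := fun b => by
    rw [H.mul, Pre.P]; ring
  have e2 : ∑ b, S.n b * S.x b = S.xn := Finset.sum_congr rfl fun b _ => mul_comm _ _
  simp only [Mov.x2, H.toIsDS.D_sum, e, ← Finset.mul_sum, H.P_apply, e2]; ring

theorem gam_x (f : R) (b : ι) : S.gam f (S.x b) = S.D b f := by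
  rw [← H.toIsDS.PD b]
  exact Finset.sum_congr rfl fun c _ => by rw [mul_comm, H.symm b c]; rfl

theorem gam_comm (f g : R) : S.gam f g = S.gam g f :=
  Finset.sum_congr rfl fun _ _ => mul_comm _ _

theorem tr_P : ∑ a, S.P a a = (Fintype.card ι : R) - 1 := by
  simp [H.Pn, Finset.sum_sub_distrib, H.nn]

theorem lap_x (a : ι) : S.lap (S.x a) = -(S.h * S.n a) := H.H_eq a

theorem lap_x2 : S.lap S.x2 = 2 * ((Fintype.card ι : R) - 1) - 2 * S.h * S.xn := by
  have e : ∀ b, S.lap (S.x b * S.x b) = 2 * S.P b b - 2 * S.h * (S.x b * S.n b) := fun b => by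
    rw [H.toIsDS.lap_mul, H.gam_x, H.lap_x, Pre.P]; ring
  have : S.lap S.x2 = ∑ b, S.lap (S.x b * S.x b) := by
    simp only [Pre.lap, Mov.x2, H.toIsDS.D_sum]; exact Finset.sum_comm
  simp only [this, e, Finset.sum_sub_distrib, ← Finset.mul_sum, H.tr_P, Mov.xn]


end IsHyp

namespace IsMov

variable (H : S.IsMov)
include H








/-! ### the mean curvature flow: `w = 0` -/

section Mcf

variable (hw : S.w = 0)
include hw

theorem mcf_x (a : ι) : S.box (S.x a) = 0 := by rw [H.box_x, hw, zero_mul]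

theorem mcf_n (a : ι) : S.box (S.n a) = S.a2 * S.n a := by
  rw [H.box_n, hw, H.toIsDS.D_zero, sub_zero]

theorem mcf_D (f : R) (a : ι) : S.box (S.D a f) = S.D a (S.box f)
    + 2 * ∑ b, S.B2 a b * S.D b f + 2 * S.n a * ∑ b, ∑ c, S.B b c * S.D b (S.D c f) := by
  rw [H.box_D, hw]
  simp only [Pre.gam, H.toIsDS.D_zero, zero_mul, Finset.sum_const_zero, mul_zero, add_zero,
    sub_zero]




end Mcf

end IsMov

end Mov

end Crest.Agent.N250

end
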